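import Vale.Agent.P273.H857.Def

/-!
# P273, POT: existence and stability of admissible graph paths
-/

open Complex Set Filter Topology MeasureTheory
open scoped ContDiff

namespace Vale.Agent.P273.H630

open Vale.Agent.P273.H857

noncomputable section

/-- A compactly supported smooth function has a bounded derivative. -/
theorem isPath_of_compact {g : ℝ → ℝ} (hg : ContDiff ℝ ∞ g) (hc : HasCompactSupport g)
    (h0 : g 0 = 0) : IsPath g := by
  refine ⟨hg, h0, ?_⟩
  have h1 : Continuous (deriv g) := hg.continuous_deriv (by simp)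
  obtain ⟨K, hK⟩ := hc.deriv.exists_bound_of_continuous h1
  exact ⟨K, fun t => by simpa using hK t⟩

/-- Smooth interpolation with compact support: finitely many values, `0` at `0`. -/
theorem exists_interp (T : Finset ℝ) (h : ℝ → ℝ) (h0 : h 0 = 0) :
    ∃ g : ℝ → ℝ, ContDiff ℝ ∞ g ∧ HasCompactSupport g ∧ g 0 = 0 ∧ ∀ t ∈ T, g t = h t := by
  classical
  let T' : Finset ℝ := insert 0 T
  let p : Polynomial ℝ := Lagrange.interpolate T' id h
  obtain ⟨R, hR0, hR⟩ : ∃ R : ℝ, 0 < R ∧ ∀ t ∈ T', |t| ≤ R := by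
    refine ⟨1 + ∑ t ∈ T', |t|, by positivity, fun t ht => ?_⟩
    have := Finset.single_le_sum (f := fun t : ℝ => |t|) (fun t _ => abs_nonneg t) ht
    linarith
  let f : ContDiffBump (0 : ℝ) := ⟨R, R + 1, hR0, by linarith⟩
  have hp : ∀ t ∈ T', p.eval t = h t := fun t ht =>
    Lagrange.eval_interpolate_at_node h (Set.injOn_id _) ht
  have hf : ∀ t ∈ T', f t = 1 := fun t ht =>
    f.one_of_mem_closedBall (by simpa [Real.dist_eq] using hR t ht)
  refine ⟨fun t => f t * p.eval t, ?_, ?_, ?_, ?_⟩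
  · refine f.contDiff.mul ?_
    simpa [Polynomial.coe_aeval_eq_eval] using Polynomial.contDiff_aeval (𝕜 := ℝ) p ∞
  · exact f.hasCompactSupport.mul_right
  · have e0 : (0 : ℝ) ∈ T' := Finset.mem_insert_self _ _
    show f 0 * p.eval 0 = 0
    rw [hp 0 e0, h0, mul_zero]
  · intro t ht
    have e0 : t ∈ T' := Finset.mem_insert_of_mem ht
    show f t * p.eval t = h t
    rw [hp t e0, hf t e0, one_mul]

/-- A real number between two finite families. -/
theorem exists_between_fin {S S' : Finset ℝ} (h : ∀ s ∈ S, ∀ s' ∈ S', s < s') :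
    ∃ c, (∀ s ∈ S, s < c) ∧ ∀ s' ∈ S', c < s' := by
  rcases S.eq_empty_or_nonempty with rfl | hS
  · rcases S'.eq_empty_or_nonempty with rfl | hS'
    · exact ⟨0, by simp, by simp⟩
    · refine ⟨S'.min' hS' - 1, by simp, fun s' hs' => ?_⟩
      have := S'.min'_le s' hs'
      linarith
  · rcases S'.eq_empty_or_nonempty with rfl | hS'
    · refine ⟨S.max' hS + 1, fun s hs => ?_, by simp⟩
      have := S.le_max' s hs
      linarith
    · obtain ⟨c, h1, h2⟩ := exists_between (h _ (S.max'_mem hS) _ (S'.min'_mem hS'))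
      exact ⟨c, fun s hs => (S.le_max' s hs).trans_lt h1,
        fun s' hs' => h2.trans_le (S'.min'_le s' hs')⟩

/-- **Existence of admissible paths** (compactly supported heights). -/
theorem exists_adm_compact {B : Finset (Fin 6)} {b : C6} {x : ℂ} (h : OK B b x) :
    ∃ g, HasCompactSupport g ∧ Adm B b x g := by
  classical
  -- the height at abscissa `t`
  have key : ∀ t : ℝ, ∃ c : ℝ, (t = 0 → c = 0) ∧ (0 ≤ t → ∀ l, b l ≠ x → (b l - x).re = t →
      (l ∈ B → c < (b l - x).im) ∧ (l ∉ B → (b l - x).im < c)) := by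
    intro t
    by_cases ht : t = 0
    · refine ⟨0, fun _ => rfl, fun _ l hl hr => ?_⟩
      have h1 := h.2 l hl (by rw [sub_re] at hr; linarith)
      rw [sub_im]
      exact ⟨fun h2 => by linarith [h1.1 h2], fun h2 => by linarith [h1.2 h2]⟩
    · let L : Finset (Fin 6) := Finset.univ.filter fun l => (b l - x).re = t
      let S : Finset ℝ := (L.filter fun l => l ∉ B).image fun l => (b l - x).im
      let S' : Finset ℝ := (L.filter fun l => l ∈ B).image fun l => (b l - x).im
      by_cases ht0 : 0 ≤ t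
      · have ht1 : 0 < t := lt_of_le_of_ne ht0 (Ne.symm ht)
        have hS : ∀ s ∈ S, ∀ s' ∈ S', s < s' := by
          intro s hs s' hs'
          obtain ⟨m, hm, rfl⟩ := Finset.mem_image.1 hs
          obtain ⟨l, hl, rfl⟩ := Finset.mem_image.1 hs'
          rw [Finset.mem_filter, Finset.mem_filter] at hm hl
          have e1 : (b m - x).re = t := hm.1.2
          have e2 : (b l - x).re = t := hl.1.2
          rw [sub_re] at e1 e2
          have := h.1 l hl.2 m hm.2 (by linarith) (by linarith)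
          rw [sub_im, sub_im]
          linarith
        obtain ⟨c, h1, h2⟩ := exists_between_fin hS
        refine ⟨c, fun h3 => absurd h3 ht, fun _ l _ hr => ⟨fun hB => ?_, fun hB => ?_⟩⟩
        · exact h2 _ (Finset.mem_image.2 ⟨l, Finset.mem_filter.2
            ⟨Finset.mem_filter.2 ⟨Finset.mem_univ _, hr⟩, hB⟩, rfl⟩)
        · exact h1 _ (Finset.mem_image.2 ⟨l, Finset.mem_filter.2
            ⟨Finset.mem_filter.2 ⟨Finset.mem_univ _, hr⟩, hB⟩, rfl⟩)
      · exact ⟨0, fun _ => rfl, fun h3 => absurd h3 ht0⟩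
  choose hh h0 h1 using key
  obtain ⟨g, g1, g2, g3, g4⟩ := exists_interp (Finset.univ.image fun l => (b l - x).re) hh
    (h0 0 rfl)
  refine ⟨g, g2, isPath_of_compact g1 g2 g3, fun l hl hr => ?_⟩
  rw [g4 _ (Finset.mem_image.2 ⟨l, Finset.mem_univ _, rfl⟩)]
  exact h1 _ hr l hl rfl

theorem exists_adm {B : Finset (Fin 6)} {b : C6} {x : ℂ} (h : OK B b x) : ∃ g, Adm B b x g := by
  obtain ⟨g, -, hg⟩ := exists_adm_compact h
  exact ⟨g, hg⟩

theorem adm_iff {B : Finset (Fin 6)} {b : C6} {x : ℂ} : (∃ g, Adm B b x g) ↔ OK B b x :=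
  ⟨fun ⟨_, hg⟩ => hg.ok, exists_adm⟩

/-- The path that defines `P`. -/
theorem P_eq_choose {k : ℕ} {B : Finset (Fin 6)} {b : C6} {x : ℂ} (h : OK B b x) :
    ∃ g, Adm B b x g ∧ P k B b x = PG k B b x g := by
  have h1 := exists_adm h
  exact ⟨h1.choose, h1.choose_spec, dif_pos h1⟩

theorem P_of_not_OK {k : ℕ} {B : Finset (Fin 6)} {b : C6} {x : ℂ} (h : ¬ OK B b x) :
    P k B b x = 0 := dif_neg fun h1 => h (adm_iff.1 h1)

/-- one constraint is an open condition -/
theorem eventually_constraint {X : Type*} [TopologicalSpace X] {g : ℝ → ℝ} (hg : Continuous g)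
    {f : X → ℂ} {q : X} (hf : ContinuousAt f q) {s : Prop}
    (h : 0 ≤ (f q).re → (s → g (f q).re < (f q).im) ∧ (¬ s → (f q).im < g (f q).re)) :
    ∀ᶠ p in 𝓝 q, 0 ≤ (f p).re →
      (s → g (f p).re < (f p).im) ∧ (¬ s → (f p).im < g (f p).re) := by
  have hre : ContinuousAt (fun p => (f p).re) q := continuous_re.continuousAt.comp hf
  have him : ContinuousAt (fun p => (f p).im) q := continuous_im.continuousAt.comp hf
  have hgre : ContinuousAt (fun p => g (f p).re) q := hg.continuousAt.comp hre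
  rcases lt_or_ge (f q).re 0 with h1 | h1
  · filter_upwards [hre.eventually_lt_const h1] with p hp h2
    linarith
  · by_cases hs : s
    · have h2 := (h h1).1 hs
      filter_upwards [hgre.eventually_lt him h2] with p hp _
      exact ⟨fun _ => hp, fun h3 => absurd hs h3⟩
    · have h2 := (h h1).2 hs
      filter_upwards [him.eventually_lt hgre h2] with p hp _
      exact ⟨fun h3 => absurd h3 hs, fun _ => hp⟩

/-- **the same path works near a point that is not a root** -/
theorem adm_eventually {B : Finset (Fin 6)} {b : C6} {x : ℂ} {g : ℝ → ℝ} (h : Adm B b x g)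
    (hx : ∀ l, b l ≠ x) : ∀ᶠ p in 𝓝 (b, x), Adm B p.1 p.2 g := by
  have h1 : ∀ l, ∀ᶠ p : C6 × ℂ in 𝓝 (b, x), 0 ≤ (p.1 l - p.2).re →
      (l ∈ B → g (p.1 l - p.2).re < (p.1 l - p.2).im) ∧
      (l ∉ B → (p.1 l - p.2).im < g (p.1 l - p.2).re) := by
    intro l
    refine eventually_constraint (f := fun p : C6 × ℂ => p.1 l - p.2) (q := (b, x)) (s := l ∈ B)
      h.1.smooth.continuous (by fun_prop) (fun h2 => h.2 l (hx l) h2)
  filter_upwards [eventually_all.2 h1] with p hp
  exact ⟨h.1, fun l _ h2 => hp l h2⟩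

/-- **the same path works near a simple root** -/
theorem adm_eventually_root {B : Finset (Fin 6)} {b : C6} {j : Fin 6} {g : ℝ → ℝ}
    (h : Adm B b (b j) g) (hx : ∀ l, l ≠ j → b l ≠ b j) :
    ∀ᶠ b' in 𝓝 b, Adm B b' (b' j) g := by
  have h1 : ∀ l, ∀ᶠ b' : C6 in 𝓝 b, l ≠ j → 0 ≤ (b' l - b' j).re →
      (l ∈ B → g (b' l - b' j).re < (b' l - b' j).im) ∧
      (l ∉ B → (b' l - b' j).im < g (b' l - b' j).re) := by
    intro l
    by_cases hl : l = j
    · exact Eventually.of_forall fun _ h2 => absurd hl h2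
    have := eventually_constraint (f := fun b' : C6 => b' l - b' j) (q := b) (s := l ∈ B)
      h.1.smooth.continuous (by fun_prop) (fun h2 => h.2 l (hx l hl) h2)
    exact this.mono fun _ h3 _ => h3
  filter_upwards [eventually_all.2 h1] with b' hb'
  refine ⟨h.1, fun l h0 h2 => hb' l ?_ h2⟩
  rintro rfl
  exact h0 rfl

/-- the points with an admissible path that are not roots form an open set -/
theorem isOpen_OK (B : Finset (Fin 6)) :
    IsOpen {p : C6 × ℂ | OK B p.1 p.2 ∧ ∀ l, p.1 l ≠ p.2} := by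
  rw [isOpen_iff_mem_nhds]
  rintro ⟨b, x⟩ ⟨h1, h2⟩
  obtain ⟨g, hg⟩ := exists_adm h1
  have h3 : ∀ l, ∀ᶠ p : C6 × ℂ in 𝓝 (b, x), p.1 l ≠ p.2 := fun l =>
    ((show Continuous (fun p : C6 × ℂ => p.1 l - p.2) by fun_prop).continuousAt.eventually_ne
      (sub_ne_zero.2 (h2 l))).mono fun p hp => sub_ne_zero.1 hp
  filter_upwards [adm_eventually hg h2, eventually_all.2 h3] with p hp hp'
  exact ⟨hp.ok, hp'⟩

theorem isOpen_OK_root (B : Finset (Fin 6)) (j : Fin 6) :
    IsOpen {b : C6 | OK B b (b j) ∧ ∀ l, l ≠ j → b l ≠ b j} := by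
  rw [isOpen_iff_mem_nhds]
  rintro b ⟨h1, h2⟩
  obtain ⟨g, hg⟩ := exists_adm h1
  have h3 : ∀ l, ∀ᶠ b' : C6 in 𝓝 b, l ≠ j → b' l ≠ b' j := by
    intro l
    by_cases hl : l = j
    · exact Eventually.of_forall fun _ h => absurd hl h
    · exact ((show Continuous (fun b' : C6 => b' l - b' j) by fun_prop).continuousAt.eventually_ne
        (sub_ne_zero.2 (h2 l hl))).mono fun p hp _ => sub_ne_zero.1 hp
  filter_upwards [adm_eventually_root hg h2, eventually_all.2 h3] with b' hb' hb''
  exact ⟨hb'.ok, hb''⟩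

theorem XX_injective {b : C6} (hb : b ∈ XX) : Function.Injective b := by
  intro i j hij
  by_contra hne
  rcases lt_or_gt_of_ne hne with h | h
  · have := hb i j h (by rw [hij])
    rw [hij] at this
    exact lt_irrefl _ this
  · have := hb j i h (by rw [hij])
    rw [hij] at this
    exact lt_irrefl _ this

theorem isOpen_XX : IsOpen XX := by
  have h1 : XX = ⋂ i : Fin 6, ⋂ j : Fin 6, {b : C6 | i < j → (b i).re = (b j).re →
      (b j).im < (b i).im} := by
    ext b; simp [XX]
  rw [h1]
  refine isOpen_iInter_of_finite fun i => isOpen_iInter_of_finite fun j => ?_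
  by_cases hij : i < j
  · have h2 : {b : C6 | i < j → (b i).re = (b j).re → (b j).im < (b i).im} =
        {b : C6 | (b i).re ≠ (b j).re} ∪ {b : C6 | (b j).im < (b i).im} := by
      ext b
      simp only [hij, true_imp_iff, mem_ofPred_eq, mem_union]
      tauto
    rw [h2]
    refine (isOpen_ne_fun ?_ ?_).union (isOpen_lt ?_ ?_)
    · exact continuous_re.comp (continuous_apply i)
    · exact continuous_re.comp (continuous_apply j)
    · exact continuous_im.comp (continuous_apply j)
    · exact continuous_im.comp (continuous_apply i)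
  · have h2 : {b : C6 | i < j → (b i).re = (b j).re → (b j).im < (b i).im} = univ := by
      ext b; simp [hij]
    rw [h2]
    exact isOpen_univ

/-- the path of `piX j`: smaller labels above, larger labels below -/
theorem OK_lo {b : C6} (hb : b ∈ XX) (j : Fin 6) : OK (lo j) b (b j) := by
  refine ⟨fun l hl m hm e _ => ?_, fun l hl e => ⟨fun h => ?_, fun h => ?_⟩⟩
  · simp only [lo, Finset.mem_filter, Finset.mem_univ, true_and, not_lt] at hl hm
    exact hb l m (hl.trans_le hm) e
  · simp only [lo, Finset.mem_filter, Finset.mem_univ, true_and] at h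
    exact hb l j h e
  · simp only [lo, Finset.mem_filter, Finset.mem_univ, true_and, not_lt] at h
    have h1 : j < l := lt_of_le_of_ne h (by rintro rfl; exact hl rfl)
    exact hb j l h1 e.symm

/-- the canonical set at `x` -/
theorem OK_TA (b : C6) (x : ℂ) : OK (TA b x) b x := by
  refine ⟨fun l hl m _ _ e => ?_, fun l hl e => ⟨fun h => ?_, fun h => ?_⟩⟩
  · simp only [TA, Finset.mem_filter, Finset.mem_univ, true_and] at hl
    exact absurd hl.1 (ne_of_gt e)
  · simp only [TA, Finset.mem_filter, Finset.mem_univ, true_and] at h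
    exact h.2
  · simp only [TA, Finset.mem_filter, Finset.mem_univ, true_and, not_and, not_lt] at h
    exact lt_of_le_of_ne (h e) fun h1 => hl (Complex.ext e h1)

end

end Vale.Agent.P273.H630
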