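import Vale.Agent.P273.H857.Stm
import Vale.Agent.P273.H630.Adm

/-! # P273, row GP-EX -/

namespace Vale.Agent.P273.H630

open Vale.Agent.P273.H857

theorem stmEX : StmEX := fun _ _ _ h => exists_adm h

end Vale.Agent.P273.H630
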