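import Vale.Agent.P273.H132.NeckRem
import Vale.Agent.P273.H545.LimBase
import Vale.Agent.P273.H863.DirTab
import Vale.Agent.P273.H803.AsyQ

/-!
# P273, crew ASY0: the rows `b5`, `b6` on the necks for the explicit family `lgU U`

* `Ok`: the facts at a point with long necks; `exists_ok`;
* `neckB5`: Euler vectors; `neckB6`: the classes with `β = 0`.
-/

noncomputable section

namespace Vale.Agent.P273.H630

open Set Filter H681 H95 H732 H562 H803 H545 H722 H132 H863 H722.KapData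
open scoped Topology ContDiff

section Pt

variable {R : H95.Region} {m : ∀ k, Fin (R.n k + 1)}

/-- the facts at a point with long necks -/
structure Ok (U : UData) (R : H95.Region) (m : ∀ k, Fin (R.n k + 1)) (p : Co R m) : Prop where
  inr : (W R m).Inr p
  one : ∀ k, 1 ≤ p.2.2.1 k
  big : U.D.Big (mm (bP R m p)) (bP R m p)
  ep : ‖ep (bP R m p)‖ < U.ρ
  ang : ∀ k, |(bP R m p).2 k| ≤ 7

theorem exists_ok (U : UData) : ∃ N₀ : ℝ, 1 ≤ N₀ ∧ ∀ R m S (p : Co R m),
    H562.Adm R m S N₀ p → Ok U R m p := by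
  obtain ⟨N, hN, H⟩ := exists_big U.D
  refine ⟨max N (1 - Real.log U.ρ), hN.trans (le_max_left _ _), ?_⟩
  intro R m S p hp
  have hL := log16_nonneg
  have h1 : ∀ k, N ≤ (bP R m p).1 k := by
    intro k
    have := (le_max_left N (1 - Real.log U.ρ)).trans (hp.2.1 k)
    show N ≤ p.2.2.1 k + 2 * Real.log 16
    linarith
  have h2 : ∀ k, 1 - Real.log U.ρ ≤ (bP R m p).1 k := by
    intro k
    have := (le_max_right N (1 - Real.log U.ρ)).trans (hp.2.1 k)
    show 1 - Real.log U.ρ ≤ p.2.2.1 k + 2 * Real.log 16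
    linarith
  refine ⟨hp.1, fun k => hN.trans ((le_max_left _ _).trans (hp.2.1 k)), H _ h1, ?_, ?_⟩
  · refine (norm_ep_le h2).trans_lt ?_
    have h3 : Real.exp (-(1 - Real.log U.ρ)) < Real.exp (Real.log U.ρ) :=
      Real.exp_lt_exp.2 (by linarith)
    rwa [Real.exp_log U.ρ_pos] at h3
  · intro k
    obtain ⟨a, b⟩ := hp.2.2.1 k
    show |p.2.2.2.1 k| ≤ 7
    rw [abs_le]
    constructor <;> linarith

variable {U : UData} {p : Co R m} {j : L} {k : Fin 3}

theorem Ok.ul (ho : Ok U R m p) : ∀ k, 0 ≤ (W R m).ul p k :=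
  ul_nonneg ho.inr fun k => zero_le_one.trans (ho.one k)

/-- the leg is 545's derivative -/
theorem Ok.leg (ho : Ok U R m p) (h : R.pl j = Sum.inl k) (S : L → Bool) (ξ : Fin 6 → ℝ) :
    lgU U R m S j ξ p = UNpD m U h ξ p := by
  rw [lgU_neck U R m S h]
  exact fderiv_UNp m U ho.big ho.ep ho.inr ho.ul h ξ

theorem norm_xeF_le (ξ : Fin 6 → ℝ) : ‖xeF ξ‖ ≤ ‖ξ‖ := by
  rw [pi_norm_le_iff_of_nonneg (norm_nonneg _)]
  intro k
  fin_cases k
  · exact norm_le_pi_norm ξ 1
  · exact norm_le_pi_norm ξ 3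
  · exact norm_le_pi_norm ξ 5

theorem norm_btF_le (ξ : Fin 6 → ℝ) : ‖btF ξ‖ ≤ 2 * ‖ξ‖ := by
  rw [pi_norm_le_iff_of_nonneg (by positivity)]
  intro k
  fin_cases k
  · exact (norm_sub_le (ξ 1) (ξ 0)).trans (by
      have := norm_le_pi_norm ξ 1
      have := norm_le_pi_norm ξ 0
      linarith)
  · exact (norm_sub_le (ξ 3) (ξ 2)).trans (by
      have := norm_le_pi_norm ξ 3
      have := norm_le_pi_norm ξ 2
      linarith)
  · exact (norm_sub_le (ξ 5) (ξ 4)).trans (by
      have := norm_le_pi_norm ξ 5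
      have := norm_le_pi_norm ξ 4
      linarith)

theorem sz_le (ξ : Fin 6 → ℝ) : sz (xeF ξ) (btF ξ) ≤ 3 * ‖ξ‖ := by
  have h1 := norm_xeF_le ξ
  have h2 := norm_btF_le ξ
  unfold sz
  linarith

theorem btF_eq_zero {ξ : Fin 6 → ℝ} (hb : ∀ k, bt ξ k = 0) : btF ξ = 0 := funext hb

theorem len_ge (p : Co R m) (k : Fin 3) : p.2.2.1 k ≤ (bP R m p).1 k := by
  have := log16_nonneg
  show p.2.2.1 k ≤ p.2.2.1 k + 2 * Real.log 16
  linarith

theorem wa_le (ho : Ok U R m p) (ξ : Fin 6 → ℝ) : wa (xeF ξ) (bP R m p) ≤ ww ξ p.2.2.1 := by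
  refine Finset.sum_le_sum fun k _ => ?_
  have h1 := ho.one k
  exact div_le_div_of_nonneg_left (abs_nonneg _) (by linarith) (len_ge p k)

/-- the smallest length of the shifted base -/
theorem mm_div_le (ho : Ok U R m p) (l : Fin 3) :
    mm (bP R m p) / (bP R m p).1 l ≤ (1 + 2 * Real.log 16) * (mn p.2.2.1 / p.2.2.1 l) := by
  have hL := log16_nonneg
  have h1 : 1 ≤ mn p.2.2.1 := one_le_mn ho.one
  have hl := ho.one l
  have h2 : mm (bP R m p) ≤ mn p.2.2.1 + 2 * Real.log 16 := by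
    have h3 : ∀ k, mm (bP R m p) - 2 * Real.log 16 ≤ p.2.2.1 k := by
      intro k
      have h4 : mm (bP R m p) ≤ p.2.2.1 k + 2 * Real.log 16 := mm_le (bP R m p) k
      linarith
    have h5 : mm (bP R m p) - 2 * Real.log 16 ≤ mn p.2.2.1 :=
      le_min (h3 0) (le_min (h3 1) (h3 2))
    linarith
  have h3 : mm (bP R m p) ≤ (1 + 2 * Real.log 16) * mn p.2.2.1 := by nlinarith
  calc mm (bP R m p) / (bP R m p).1 l ≤ (1 + 2 * Real.log 16) * mn p.2.2.1 / p.2.2.1 l :=
        div_le_div₀ (by positivity) h3 (by linarith) (len_ge p l)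
    _ = _ := by ring

/-- the Euler vector moves the mark like the Euler vector of the shifted base, up to `log 16 / y` -/
theorem SC_eul (ho : Ok U R m p) (h : R.pl j = Sum.inl k) (l : Fin 3) :
    TC m h ((W R m).eul p l) = 0 ∧
    |SC m h ((W R m).eul p l) - if k = l then SX m h p / (bP R m p).1 k else 0| ≤
      if k = l then Real.log 16 / (bP R m p).1 k else 0 := by
  have hL := log16_nonneg
  have hyl : p.2.2.1 l ≠ 0 := by
    have := ho.one l
    linarith
  by_cases hkl : k = l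
  · subst hkl
    have h1 := LX_eul p k (rkF R h) hyl
    refine ⟨?_, ?_⟩
    · rw [TC_apply, h1]
      simp
    · rw [if_pos rfl, if_pos rfl, SC_apply, h1, SX_eq_dep]
      have hy := ho.one k
      set y := p.2.2.1 k with hydef
      set s := wreg.dep m p k (rkF R h) with hsdef
      have hs0 : 0 ≤ s := wreg.dep_nonneg m ho.inr ho.ul k (rkF R h)
      have hs1 : s ≤ y := wreg.dep_le m ho.inr ho.ul k (rkF R h)
      have e1 : (bP R m p).1 k = y + 2 * Real.log 16 := rfl
      rw [e1]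
      have e2 : -(-((s / y : ℝ) : ℂ)).re - (Real.log 16 + s) / (y + 2 * Real.log 16) =
          Real.log 16 * ((2 * s - y) / y) / (y + 2 * Real.log 16) := by
        rw [Complex.neg_re, Complex.ofReal_re, neg_neg]
        have : y + 2 * Real.log 16 ≠ 0 := by positivity
        field_simp
        ring
      rw [e2, abs_div, abs_of_pos (by positivity : 0 < y + 2 * Real.log 16)]
      refine div_le_div_of_nonneg_right ?_ (by positivity)
      rw [abs_mul, abs_of_nonneg hL]
      refine mul_le_of_le_one_right hL ?_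
      rw [abs_div, abs_of_pos (by linarith : 0 < y), div_le_one (by linarith), abs_le]
      constructor <;> linarith
  · have h1 := LX_eul_ne p k l (rkF R h) (fun e => hkl e.symm) hyl
    refine ⟨?_, ?_⟩
    · rw [TC_apply, h1]
      rfl
    · rw [if_neg hkl, if_neg hkl, SC_apply, h1]
      simp

end Pt

/-- **row b5 on the necks** -/
theorem neckB5 (U : UData) : ∃ K N₀ : ℝ, 1 ≤ N₀ ∧ ∀ R m S, FarOk R S → ∀ p,
    H562.Adm R m S N₀ p → ∀ j, Neck R S j → ∀ ξ, IsCl ξ →
    ∀ k, |lgU U R m S j ξ p ((W R m).eul p k)| ≤ K * (‖ξ‖ / p.2.2.1 k) := by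
  obtain ⟨N₀, hN, H⟩ := exists_ok U
  have hL := log16_nonneg
  refine ⟨(1 + Real.log 16) * (1 + 3 * U.A) * (U.D.A0 7 * 3), N₀, hN, ?_⟩
  intro R m S _ p hp j hj ξ _ l
  have ho := H R m S p hp
  obtain ⟨k, h⟩ := hj
  have hA := U.A_nonneg
  obtain ⟨t1, t2⟩ := SC_eul ho h l
  have b1 := norm_cX_SX_le m ho.inr ho.ul h (TX m h p)
  have b2 := norm_cX_SY_le m ho.inr ho.ul h ((bP R m p).2 k - TX m h p)
  have h1 := UNK_y (D := U.D) (k := k) (l := l) (p := bP R m p) (S0 := SX m h p)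
    (Θ0 := TX m h p) (B := bC R m) (S' := SC m h) (Θ' := TC m h) ho.big ho.ang
    (U.h_le k _ _ ho.ep b1) (U.h_le k _ _ ho.ep b2) (U.h'_le k _ _ ho.ep b1)
    (U.h'_le k _ _ ho.ep b2) (SX_nonneg m h ho.inr ho.ul) (SX_le m h ho.inr ho.ul)
    (xeF ξ) (btF ξ) hL (bC_eul R m p l) t1 t2
  rw [ho.leg h]
  have hA0 : 0 ≤ U.D.A0 7 := by
    have h3 := U.D.κ_one
    have h4 : (0 : ℝ) ≤ nn (Fin 3) := nn_nonneg
    unfold KapData.A0 KapData.W0 KapData.B0
    positivity
  have hy := ho.one l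
  have hy' := len_ge (R := R) (m := m) p l
  have hs := sz_le ξ
  have hs0 := sz_nonneg (xeF ξ) (btF ξ)
  refine h1.trans ?_
  calc (1 + Real.log 16) * (1 + 3 * U.A) * (U.D.A0 7 * sz (xeF ξ) (btF ξ)) / (bP R m p).1 l
      ≤ (1 + Real.log 16) * (1 + 3 * U.A) * (U.D.A0 7 * (3 * ‖ξ‖)) / p.2.2.1 l := by
        refine div_le_div₀ (by positivity) ?_ (by linarith) hy'
        gcongr
    _ = _ := by ring

/-- **row b6 on the necks** -/
theorem neckB6 (U : UData) : ∃ K N₀ : ℝ, 1 ≤ N₀ ∧ ∀ R m S, FarOk R S → ∀ p,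
    H562.Adm R m S N₀ p → ∀ j, Neck R S j → ∀ ξ, IsCl ξ → (∀ k, bt ξ k = 0) →
    (∀ d : (W R m).Dir R.Cm, (∀ k, d ≠ .y k) →
      |lgU U R m S j ξ p ((W R m).vec d)| ≤ K * ww ξ p.2.2.1) ∧
    ∀ k, |lgU U R m S j ξ p ((W R m).eul p k)| ≤
      K * (ww ξ p.2.2.1 * (mn p.2.2.1 / p.2.2.1 k)) := by
  obtain ⟨N₀, hN, H⟩ := exists_ok U
  have hL := log16_nonneg
  have hA := U.A_nonneg
  have hA2 := one_le_A2 U.D
  set K1 : ℝ := (8 + 32 * U.A) * 2 with hK1
  set K2 : ℝ := (A2 U.D + 16 * U.A + 2 * U.A * A2 U.D) * 3 with hK2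
  set K3 : ℝ := (1 + Real.log 16) * (A2 U.D + 8) * (1 + 8 * U.A) * (1 + 2 * Real.log 16) with hK3
  have hK1' : 0 ≤ K1 := by positivity
  have hK2' : 0 ≤ K2 := by positivity
  have hK3' : 0 ≤ K3 := by positivity
  refine ⟨K1 + K2 + K3, N₀, hN, ?_⟩
  intro R m S _ p hp j hj ξ _ hb
  have ho := H R m S p hp
  obtain ⟨k, h⟩ := hj
  have hb0 := btF_eq_zero hb
  have b1 := norm_cX_SX_le m ho.inr ho.ul h (TX m h p)
  have b2 := norm_cX_SY_le m ho.inr ho.ul h ((bP R m p).2 k - TX m h p)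
  have hw := wa_le ho ξ
  have hw0 : 0 ≤ wa (xeF ξ) (bP R m p) := wa_nonneg ho.big (xeF ξ)
  have hW0 : 0 ≤ ww ξ p.2.2.1 := hw0.trans hw
  have s0 := SX_nonneg m h ho.inr ho.ul
  have s1 := SX_le m h ho.inr ho.ul
  have hle : ∀ d : (W R m).Dir R.Cm, |SC m h ((W R m).vec d)| ≤ 1 ∧
      |TC m h ((W R m).vec d)| ≤ 1 := by
    intro d
    have h1 : ‖wreg.LX R.Cm R.n m k (rkF R h) ((W R m).vec d)‖ ≤ 1 :=
      (W R m).norm_lS_vec_le _ d
    rw [SC_apply, TC_apply, abs_neg]
    exact ⟨(Complex.abs_re_le_norm _).trans h1, (Complex.abs_im_le_norm _).trans h1⟩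
  refine ⟨?_, ?_⟩
  · -- directions with a fixed base
    have key : ∀ d : (W R m).Dir R.Cm, bC R m ((W R m).vec d) = 0 →
        |lgU U R m S j ξ p ((W R m).vec d)| ≤ (K1 + K2 + K3) * ww ξ p.2.2.1 := by
      intro d hd
      rw [ho.leg h]
      unfold UNpD
      rw [hb0]
      obtain ⟨g1, -⟩ := UNK_gap_alpha (D := U.D) (k := k) (p := bP R m p) (S0 := SX m h p)
        (Θ0 := TX m h p) (B := bC R m) (S' := SC m h) (Θ' := TC m h) ho.big
        (U.h_le k _ _ ho.ep b1) (U.h_le k _ _ ho.ep b2) (U.h'_le k _ _ ho.ep b1)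
        (U.h'_le k _ _ ho.ep b2) s0 s1 (xeF ξ) hd
      refine g1.trans ?_
      obtain ⟨c1, c2⟩ := hle d
      calc (8 + 32 * U.A) * wa (xeF ξ) (bP R m p) *
            (|SC m h ((W R m).vec d)| + |TC m h ((W R m).vec d)|)
          ≤ (8 + 32 * U.A) * ww ξ p.2.2.1 * 2 := by
            refine mul_le_mul ?_ (by linarith) (by positivity) (by positivity)
            exact mul_le_mul_of_nonneg_left hw (by positivity)
        _ = K1 * ww ξ p.2.2.1 := by rw [hK1]; ring
        _ ≤ _ := mul_le_mul_of_nonneg_right (by linarith) hW0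
    intro d hd
    cases d with
    | u f => exact key _ rfl
    | ph f => exact key _ rfl
    | y l => exact absurd rfl (hd l)
    | re c => exact key _ rfl
    | im c => exact key _ rfl
    | al l =>
      rw [ho.leg h]
      unfold UNpD
      rw [hb0]
      have hS : SC m h ((W R m).vec (.al l)) = 0 := by
        by_cases hkl : l = k
        · subst hkl
          rw [SC_apply]
          rcases al_split ho.inr ho.ul l (rkF R h) with ⟨e, -⟩ | ⟨e, -⟩
          · rw [e]; simp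
          · rw [e]; simp
        · rw [SC_apply, LX_al_ne (m := m) k l (rkF R h) hkl]
          simp
      have g1 := UNK_a_alpha (D := U.D) (k := k) (l := l) (p := bP R m p) (S0 := SX m h p)
        (Θ0 := TX m h p) (B := bC R m) (S' := SC m h) (Θ' := TC m h) ho.big
        (U.h_le k _ _ ho.ep b1) (U.h_le k _ _ ho.ep b2) (U.h'_le k _ _ ho.ep b1)
        (U.h'_le k _ _ ho.ep b2) s0 s1 (xeF ξ) (bC_al R m l) hS
      refine g1.trans ?_
      have e1 : Real.exp (-((bP R m p).1 l)) ≤ 1 := by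
        rw [Real.exp_le_one_iff]
        have := len_ge (R := R) (m := m) p l
        have := ho.one l
        linarith
      have e2 : Real.exp (-(SX m h p)) ≤ 1 := by
        rw [Real.exp_le_one_iff]; linarith
      have e3 : Real.exp (-((bP R m p).1 k - SX m h p)) ≤ 1 := by
        rw [Real.exp_le_one_iff]; linarith
      have e4 := (hle (.al l)).2
      have e5 : |(if k = l then (1 : ℝ) else 0) - TC m h ((W R m).vec (.al l))| ≤ 1 := by
        by_cases hkl : l = k
        · subst hkl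
          rw [TC_apply, if_pos rfl]
          rcases al_split ho.inr ho.ul l (rkF R h) with ⟨e, -⟩ | ⟨e, -⟩
          · rw [e]; simp
          · rw [e]; simp
        · rw [TC_apply, LX_al_ne (m := m) k l (rkF R h) hkl, if_neg (fun e => hkl e.symm)]
          simp
      have e6 : Real.exp (-((bP R m p).1 l)) + (Real.exp (-(SX m h p)) *
          |TC m h ((W R m).vec (.al l))| + Real.exp (-((bP R m p).1 k - SX m h p)) *
          |(if k = l then (1 : ℝ) else 0) - TC m h ((W R m).vec (.al l))|) ≤ 3 := by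
        have f1 := mul_le_one₀ e2 (abs_nonneg _) e4
        have f2 := mul_le_one₀ e3 (abs_nonneg _) e5
        linarith
      calc (A2 U.D + 16 * U.A + 2 * U.A * A2 U.D) * wa (xeF ξ) (bP R m p) *
            (Real.exp (-((bP R m p).1 l)) + (Real.exp (-(SX m h p)) *
              |TC m h ((W R m).vec (.al l))| + Real.exp (-((bP R m p).1 k - SX m h p)) *
              |(if k = l then (1 : ℝ) else 0) - TC m h ((W R m).vec (.al l))|))
          ≤ (A2 U.D + 16 * U.A + 2 * U.A * A2 U.D) * ww ξ p.2.2.1 * 3 := by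
            refine mul_le_mul ?_ e6 (by positivity) (by positivity)
            exact mul_le_mul_of_nonneg_left hw (by positivity)
        _ = K2 * ww ξ p.2.2.1 := by rw [hK2]; ring
        _ ≤ _ := mul_le_mul_of_nonneg_right (by linarith) hW0
  · intro l
    rw [ho.leg h]
    unfold UNpD
    rw [hb0]
    obtain ⟨t1, t2⟩ := SC_eul ho h l
    have g1 := UNK_y_alpha (D := U.D) (k := k) (l := l) (p := bP R m p) (S0 := SX m h p)
      (Θ0 := TX m h p) (B := bC R m) (S' := SC m h) (Θ' := TC m h) ho.big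
      (U.h_le k _ _ ho.ep b1) (U.h_le k _ _ ho.ep b2) (U.h'_le k _ _ ho.ep b1)
      (U.h'_le k _ _ ho.ep b2) s0 s1 (xeF ξ) hL (bC_eul R m p l) t1 t2
    refine g1.trans ?_
    have hm := mm_div_le ho l
    have hmm : 0 ≤ mn p.2.2.1 / p.2.2.1 l :=
      div_nonneg (zero_le_one.trans (one_le_mn ho.one)) (zero_le_one.trans (ho.one l))
    have hmm' : 0 ≤ mm (bP R m p) / (bP R m p).1 l := by
      have := ho.big.pos
      have := ho.big.le l
      exact div_nonneg (by linarith) (by linarith)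
    calc (1 + Real.log 16) * (A2 U.D + 8) * (1 + 8 * U.A) * wa (xeF ξ) (bP R m p) *
          (mm (bP R m p) / (bP R m p).1 l)
        ≤ (1 + Real.log 16) * (A2 U.D + 8) * (1 + 8 * U.A) * ww ξ p.2.2.1 *
          ((1 + 2 * Real.log 16) * (mn p.2.2.1 / p.2.2.1 l)) := by
          refine mul_le_mul ?_ hm hmm' (by positivity)
          exact mul_le_mul_of_nonneg_left hw (by positivity)
      _ = K3 * (ww ξ p.2.2.1 * (mn p.2.2.1 / p.2.2.1 l)) := by rw [hK3]; ring
      _ ≤ _ := mul_le_mul_of_nonneg_right (by linarith) (mul_nonneg hW0 hmm)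

end Vale.Agent.P273.H630

end
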